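import Vale.Agent.P261.H468.Spec

/-!
# P261, leaf B6, first half: weights on the curve

If every form of weight `0` is constant then the forms of weight `w` are the multiples
`c X^r`, `w = r (p^m - 1)`.
-/

open Vale.Agent.P251.F Vale.Agent.P217

namespace Vale.Agent.P261.H452

variable {p m : ℕ} {k : Type} [Field k] {H : Law k} (L : Curve p m H)

theorem mem_inv {w : ℤ} {a : PowerSeries k} : a ∈ L.inv w ↔
    ∀ γ, L.φ γ a = (((L.g γ).lead ^ w : (PowerSeries k)ˣ) : PowerSeries k) * a := Iff.rfl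

theorem mul_mem {w w' : ℤ} {a b : PowerSeries k} (ha : a ∈ L.inv w) (hb : b ∈ L.inv w') :
    a * b ∈ L.inv (w + w') := by
  rw [mem_inv] at ha hb ⊢
  intro γ
  rw [map_mul, ha γ, hb γ, zpow_add, Units.val_mul]
  ring

theorem one_mem : (1 : PowerSeries k) ∈ L.inv 0 := by
  rw [mem_inv]
  intro γ
  rw [map_one, zpow_zero, Units.val_one, one_mul]

theorem pow_mem {w : ℤ} {a : PowerSeries k} (ha : a ∈ L.inv w) (n : ℕ) :
    a ^ n ∈ L.inv (n * w) := by
  induction n with
  | zero => simpa using one_mem L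
  | succ n ih =>
    rw [pow_succ, Nat.cast_succ, add_mul, one_mul]
    exact mul_mem L ih ha

/-- Division by a form which is not zero. -/
theorem mem_of_mul_mem {w w' : ℤ} {a b : PowerSeries k} (ha : a ∈ L.inv w') (ha0 : a ≠ 0)
    (hab : a * b ∈ L.inv w) : b ∈ L.inv (w - w') := by
  rw [mem_inv] at ha hab ⊢
  intro γ
  have h1 := hab γ
  rw [map_mul, ha γ] at h1
  have h2 : (((L.g γ).lead ^ w' : (PowerSeries k)ˣ) : PowerSeries k) * a ≠ 0 :=
    mul_ne_zero (Units.ne_zero _) ha0
  refine mul_left_cancel₀ h2 ?_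
  rw [h1]
  have h3 : (L.g γ).lead ^ w = (L.g γ).lead ^ w' * (L.g γ).lead ^ (w - w') := by
    rw [← zpow_add]
    congr 1
    ring
  rw [h3, Units.val_mul]
  ring

theorem X_mem [Fact p.Prime] : (PowerSeries.X : PowerSeries k) ∈ L.inv ((p : ℤ) ^ m - 1) := by
  rw [mem_inv]
  intro γ
  have h1 := (vv_smul_of_zero p m (L.F.map (L.φ γ)) (L.g γ) fun i hi => by
    rw [vv_map, L.vlow i hi, map_zero]).2
  rw [L.law γ, L.vX, vv_map, L.vX] at h1
  set u := (L.g γ).lead with hu
  have hc : (L.g γ).c 0 = (u : PowerSeries k) := rfl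
  rw [hc] at h1
  have h2 : ((u ^ ((p : ℤ) ^ m - 1) : (PowerSeries k)ˣ) : PowerSeries k) * (u : PowerSeries k) =
      (u : PowerSeries k) ^ (p ^ m) := by
    rw [← Units.val_mul, ← Units.val_pow_eq_pow_val]
    congr 1
    rw [← zpow_natCast u (p ^ m), ← zpow_add_one]
    congr 1
    push_cast
    ring
  have h3 : (u : PowerSeries k) * L.φ γ PowerSeries.X = (u : PowerSeries k) *
      (((u ^ ((p : ℤ) ^ m - 1) : (PowerSeries k)ˣ) : PowerSeries k) * PowerSeries.X) := by
    rw [← h1, ← h2]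
    ring
  exact u.isUnit.mul_left_cancel h3

/-- If the forms of weight `0` are constant: the forms of weight `w`. -/
theorem exists_eq [hp : Fact p.Prime] (hm : 1 ≤ m)
    (h0 : ∀ f ∈ L.inv 0, f = PowerSeries.C (PowerSeries.constantCoeff f)) {w : ℤ}
    {a : PowerSeries k} (ha : a ∈ L.inv w) (ha0 : a ≠ 0) :
    ∃ (r : ℕ) (c : k), w = r * ((p : ℤ) ^ m - 1) ∧ a = PowerSeries.C c * PowerSeries.X ^ r := by
  obtain ⟨r, u, hu, rfl⟩ : ∃ (r : ℕ) (u : PowerSeries k), PowerSeries.constantCoeff u ≠ 0 ∧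
      a = PowerSeries.X ^ r * u := by
    have hfin : FiniteMultiplicity (PowerSeries.X : PowerSeries k) a :=
      FiniteMultiplicity.of_prime_left PowerSeries.X_prime ha0
    obtain ⟨u, hu, hn⟩ := hfin.exists_eq_pow_mul_and_not_dvd
    refine ⟨_, u, ?_, hu⟩
    rwa [Ne, ← PowerSeries.X_dvd_iff]
  have hu0 : u ≠ 0 := by
    rintro rfl
    exact hu (map_zero _)
  set N : ℤ := (p : ℤ) ^ m - 1 with hN
  have hNpos : 0 < N := by
    have h2 : (2 : ℤ) ≤ p := by exact_mod_cast hp.out.two_le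
    have h3 : (p : ℤ) ^ 1 ≤ (p : ℤ) ^ m := pow_le_pow_right₀ (by linarith) hm
    rw [pow_one] at h3
    linarith
  have hXr : (PowerSeries.X ^ r : PowerSeries k) ∈ L.inv (r * N) := pow_mem L (X_mem L) r
  have hX0 : ∀ n : ℕ, (PowerSeries.X ^ n : PowerSeries k) ≠ 0 := fun n =>
    pow_ne_zero n PowerSeries.X_ne_zero
  have huw : u ∈ L.inv (w - r * N) := mem_of_mul_mem L hXr (hX0 r) ha
  set w' : ℤ := w - r * N with hw'
  have key : w' = 0 := by
    by_contra hne
    rcases lt_or_gt_of_ne hne with hlt | hgt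
    · -- `u^N X^|w'|` has weight zero
      have h1 : u ^ N.toNat * PowerSeries.X ^ (-w').toNat ∈ L.inv 0 := by
        have h2 := mul_mem L (pow_mem L huw N.toNat) (pow_mem L (X_mem L) (-w').toNat)
        have h3 : (N.toNat : ℤ) * w' + ((-w').toNat : ℤ) * ((p : ℤ) ^ m - 1) = 0 := by
          rw [Int.toNat_of_nonneg hNpos.le, Int.toNat_of_nonneg (by linarith), ← hN]
          ring
        rwa [h3] at h2
      have h4 := h0 _ h1
      have h5 : PowerSeries.constantCoeff (u ^ N.toNat * PowerSeries.X ^ (-w').toNat :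
          PowerSeries k) = 0 := by
        rw [map_mul, map_pow, map_pow, PowerSeries.constantCoeff_X, zero_pow, mul_zero]
        intro h
        rw [Int.toNat_eq_zero] at h
        linarith
      rw [h5, map_zero] at h4
      exact mul_ne_zero (pow_ne_zero _ hu0) (hX0 _) h4
    · -- `X^w' = u^N f` with `f` of weight zero
      have hun : IsUnit u := PowerSeries.isUnit_iff_constantCoeff.2 (isUnit_iff_ne_zero.2 hu)
      obtain ⟨v, hv⟩ := hun.pow N.toNat
      have hvm : (v : PowerSeries k) ∈ L.inv (N.toNat * w') := by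
        rw [hv]
        exact pow_mem L huw _
      have h1 : ((v⁻¹ : (PowerSeries k)ˣ) : PowerSeries k) * PowerSeries.X ^ w'.toNat ∈
          L.inv 0 := by
        have h2 : (v : PowerSeries k) *
            (((v⁻¹ : (PowerSeries k)ˣ) : PowerSeries k) * PowerSeries.X ^ w'.toNat) ∈
            L.inv (w'.toNat * ((p : ℤ) ^ m - 1)) := by
          rw [← mul_assoc, Units.mul_inv, one_mul]
          exact pow_mem L (X_mem L) _
        have h3 := mem_of_mul_mem L hvm (Units.ne_zero v) h2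
        have h4 : (w'.toNat : ℤ) * ((p : ℤ) ^ m - 1) - N.toNat * w' = 0 := by
          rw [Int.toNat_of_nonneg hNpos.le, Int.toNat_of_nonneg hgt.le, ← hN]
          ring
        rwa [h4] at h3
      have h4 := h0 _ h1
      have h5 : PowerSeries.constantCoeff (((v⁻¹ : (PowerSeries k)ˣ) : PowerSeries k) *
          PowerSeries.X ^ w'.toNat) = 0 := by
        rw [map_mul, map_pow, PowerSeries.constantCoeff_X, zero_pow, mul_zero]
        intro h
        rw [Int.toNat_eq_zero] at h
        linarith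
      rw [h5, map_zero] at h4
      exact mul_ne_zero (Units.ne_zero _) (hX0 _) h4
  rw [key] at huw
  refine ⟨r, PowerSeries.constantCoeff u, by linarith, ?_⟩
  conv_lhs => rw [h0 u huw]
  rw [mul_comm]

/-- Leaf B6, from B5. -/
theorem fin_of [hp : Fact p.Prime] (hm : 1 ≤ m) [Finite k]
    (h0 : ∀ f ∈ L.inv 0, f = PowerSeries.C (PowerSeries.constantCoeff f)) (w : ℤ) :
    (L.inv w : Set (PowerSeries k)).Finite ∧ (w < 0 → ∀ a ∈ L.inv w, a = 0) := by
  have hNpos : 0 < (p : ℤ) ^ m - 1 := by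
    have h2 : (2 : ℤ) ≤ p := by exact_mod_cast hp.out.two_le
    have h3 : (p : ℤ) ^ 1 ≤ (p : ℤ) ^ m := pow_le_pow_right₀ (by linarith) hm
    rw [pow_one] at h3
    linarith
  constructor
  · have hfin : (Set.range fun c : k =>
        (PowerSeries.C c * PowerSeries.X ^ (w / ((p : ℤ) ^ m - 1)).toNat : PowerSeries k)).Finite :=
      Set.finite_range _
    refine hfin.subset ?_
    intro a ha
    rcases eq_or_ne a 0 with rfl | ha0
    · exact ⟨0, by simp⟩
    · obtain ⟨r, c, hw, rfl⟩ := exists_eq L hm h0 ha ha0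
      refine ⟨c, ?_⟩
      have : (w / ((p : ℤ) ^ m - 1)).toNat = r := by
        rw [hw, Int.mul_ediv_cancel _ hNpos.ne']
        rfl
      simp only [this]
  · intro hw a ha
    by_contra ha0
    obtain ⟨r, c, hw', -⟩ := exists_eq L hm h0 ha ha0
    have : 0 ≤ (r : ℤ) * ((p : ℤ) ^ m - 1) := mul_nonneg (Int.natCast_nonneg r) hNpos.le
    linarith

end Vale.Agent.P261.H452
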