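import Vale.Agent.P261.H124.B5
import Vale.Agent.P261.H452.B6a

/-!
# P261, leaf B6: the forms on the curve
-/

open Vale.Agent.P251.F Vale.Agent.P217

namespace Vale.Agent.P261

theorem Curve.fin {p m : ℕ} [Fact p.Prime] {k : Type} [Field k] {H : Law k}
    (hm : 1 ≤ m) (hk : Nat.card k = p ^ (m + 1)) (hH : HondaOver p (m + 1) H.toFG)
    (L : Curve p m H) (w : ℤ) : (L.inv w : Set (PowerSeries k)).Finite ∧
      (w < 0 → ∀ a ∈ L.inv w, a = 0) := by
  have : Finite k := Nat.finite_of_card_ne_zero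
    (by rw [hk]; exact pow_ne_zero _ (Fact.out : p.Prime).ne_zero)
  exact H452.fin_of L hm (fun f hf => Curve.const_of_inv_zero hm hk hH L f hf) w

end Vale.Agent.P261
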